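import Mathlib
import Crest.Agent.N250.R0.Leaf
import Crest.Agent.N250.Se.Dic
import Crest.Agent.N250.Lg.Tube
import Crest.Agent.N250.Lg.Sl
import Crest.Agent.N250.Lp.Rot
import Crest.Agent.N250.Wt.Grn2

-- ▼ part N250/Lg/Abs
section

/-! Row 250, block R0 (helper28): the linearised gluing system, abstract form. -/

set_option autoImplicit false
open Finset

noncomputable section

namespace Crest.Agent.N250.Lg

/-- `V` functions, `AA` sources, `B` boundary data, `M` slow data; `κ` core pairings,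
`α` ends (`a`-pairings), `γ` rotations -/
structure LD (V AA B M κ α γ : Type) [AddCommGroup V] [Module ℂ V] [AddCommGroup AA] [Module ℂ AA]
    [AddCommGroup B] [Module ℂ B] [AddCommGroup M] [Module ℂ M] [Fintype κ] [Fintype α]
    [Fintype γ] where
  H : Submodule ℂ V
  L : V →ₗ[ℂ] V
  ι : AA →ₗ[ℂ] V
  ψ : κ ⊕ α → V
  Pr : V →ₗ[ℂ] (κ ⊕ α → ℂ)
  Gu : (AA × (κ ⊕ α → ℂ)) →ₗ[ℂ] V
  Gc : (AA × (κ ⊕ α → ℂ)) →ₗ[ℂ] (κ ⊕ α → ℂ)
  u : α → V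
  Jh : (γ → ℂ) →ₗ[ℂ] V
  r : (γ → ℂ) →ₗ[ℂ] AA
  Dat : V →ₗ[ℂ] B
  Ph : B → V
  S0 : B →ₗ[ℂ] AA
  pr : B →ₗ[ℂ] M
  d0 : B →ₗ[ℂ] M
  Gu_mem : ∀ q, Gu q ∈ H
  L_Gu : ∀ q, L (Gu q) = ι q.1 + ∑ k, Gc q k • ψ k
  Pr_Gu : ∀ q, Pr (Gu q) = q.2
  uniq : ∀ v ∈ H, ∀ c : κ → ℂ, L v = ∑ k, c k • ψ (.inl k) → (∀ k, Pr v (.inl k) = 0) → v = 0
  uniq' : ∀ v ∈ H, ∀ c : κ ⊕ α → ℂ, L v = ∑ k, c k • ψ k → Pr v = 0 → v = 0
  u_mem : ∀ l, u l ∈ H
  L_u : ∀ l, L (u l) = ψ (.inr l)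
  Pr_u : ∀ l k, Pr (u l) (.inl k) = 0
  Jh_mem : ∀ β, Jh β ∈ H
  Pr_Jh : ∀ β, Pr (Jh β) = 0
  ι_r : ∀ β, ι (r β) = L (Jh β)
  Ph_mem : ∀ b, Ph b ∈ H
  Pr_Ph : ∀ b, Pr (Ph b) = 0
  Dat_Ph : ∀ b, Dat (Ph b) = 0
  ι_S0 : ∀ b, ι (S0 b) = -L (Ph b)
  slow : ∀ (c : α → ℂ) (β : γ → ℂ),
    pr (Dat (∑ l, c l • u l - Jh β)) = d0 (Dat (∑ l, c l • u l - Jh β)) → c = 0 ∧ β = 0

namespace LD

variable {V AA B M κ α γ : Type} [AddCommGroup V] [Module ℂ V] [AddCommGroup AA] [Module ℂ AA]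
  [AddCommGroup B] [Module ℂ B] [AddCommGroup M] [Module ℂ M] [Fintype κ] [Fintype α] [Fintype γ]
  (D : LD V AA B M κ α γ)

/-- the linearised boundary datum -/
def bd (ξ : AA × (κ ⊕ α → ℂ) × (γ → ℂ)) : B := D.Dat (D.Gu (ξ.1, ξ.2.1))

/-- the linearised system -/
def sys (t : ℂ) (ξ : AA × (κ ⊕ α → ℂ) × (γ → ℂ)) : AA × (κ → ℂ) × M :=
  (ξ.1 + D.r ξ.2.2 - D.S0 (D.bd ξ), fun k => t * ξ.2.1 (.inl k), D.pr (D.bd ξ) - D.d0 (D.bd ξ))

theorem Gu_eq {v : V} (hv : v ∈ D.H) {f : AA} {c : κ ⊕ α → ℂ}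
    (h : D.L v = D.ι f + ∑ k, c k • D.ψ k) : D.Gu (f, D.Pr v) = v := by
  rw [← sub_eq_zero]
  refine D.uniq' _ (sub_mem (D.Gu_mem _) hv) (D.Gc (f, D.Pr v) - c) ?_ ?_
  · rw [map_sub, D.L_Gu, h]
    simp only [Pi.sub_apply, sub_smul, sum_sub_distrib]
    abel
  · rw [map_sub, D.Pr_Gu, sub_self]

theorem Gu_S0 (b : B) : D.Gu (D.S0 b, 0) = -D.Ph b := by
  have := D.Gu_eq (v := -D.Ph b) (neg_mem (D.Ph_mem b)) (f := D.S0 b) (c := 0)
    (by rw [map_neg, D.ι_S0]; simp)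
  rwa [map_neg, D.Pr_Ph, neg_zero] at this

theorem sys_inj {t : ℂ} (ht : t ≠ 0) {ξ : AA × (κ ⊕ α → ℂ) × (γ → ℂ)} (h : D.sys t ξ = 0) :
    ξ = 0 := by
  obtain ⟨f, η, β⟩ := ξ
  simp only [sys, Prod.mk_eq_zero] at h
  obtain ⟨h1, h2, h3⟩ := h
  set b := D.bd (f, η, β) with hb
  set w := D.Gu (f, η) with hw
  set c := D.Gc (f, η)
  have hη : ∀ k, η (.inl k) = 0 := fun k => (mul_eq_zero.1 (congrFun h2 k)).resolve_left ht
  have hf : f = D.S0 b - D.r β := by rw [← sub_eq_zero, ← h1]; abel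
  set v := w + D.Ph b + D.Jh β with hv
  have vm : v ∈ D.H := add_mem (add_mem (D.Gu_mem _) (D.Ph_mem _)) (D.Jh_mem _)
  have Lv : D.L v = ∑ k, c k • D.ψ k := by
    have hι : D.ι f = -D.L (D.Ph b) - D.ι (D.r β) := by rw [← D.ι_S0, ← map_sub, ← hf]
    rw [hv, map_add, map_add, hw, D.L_Gu, ← D.ι_r]
    change D.ι f + _ + _ + _ = _
    rw [hι]; abel
  have Pv : D.Pr v = η := by rw [hv, map_add, map_add, D.Pr_Ph, D.Pr_Jh, hw, D.Pr_Gu]; simp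
  have e1 : v = ∑ l, c (.inr l) • D.u l := by
    rw [← sub_eq_zero]
    refine D.uniq _ (sub_mem vm (Submodule.sum_mem _ fun l _ => D.H.smul_mem _ (D.u_mem l)))
      (fun k => c (.inl k)) ?_ fun k => ?_
    · rw [map_sub, Lv, map_sum, Fintype.sum_sum_type]
      simp only [map_smul, D.L_u]
      abel
    · rw [map_sub, map_sum, Pi.sub_apply, Pv, Finset.sum_apply]
      simp only [map_smul, Pi.smul_apply, D.Pr_u, smul_zero, sum_const_zero, sub_zero]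
      exact hη k
  have e2 : D.Dat (∑ l, c (.inr l) • D.u l - D.Jh β) = b := by
    rw [← e1, hv, add_sub_cancel_right, map_add, D.Dat_Ph, add_zero]; rfl
  obtain ⟨ca, β0⟩ := D.slow (fun l => c (.inr l)) β (by rw [e2]; exact sub_eq_zero.1 h3)
  have v0 : v = 0 := by
    rw [e1]; exact sum_eq_zero fun l _ => by rw [show c (.inr l) = 0 from congrFun ca l, zero_smul]
  have η0 : η = 0 := by rw [← Pv, v0, map_zero]
  have b0 : b = 0 := by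
    rw [← e2, ← e1, v0, β0]; simp
  rw [hf, b0, β0, η0]; simp

/-- the system as a linear map -/
def sysL (t : ℂ) : (AA × (κ ⊕ α → ℂ) × (γ → ℂ)) →ₗ[ℂ] AA × (κ → ℂ) × M where
  toFun := D.sys t
  map_add' x y := by
    have : D.bd (x + y) = D.bd x + D.bd y := by
      simp only [bd, ← map_add]; rfl
    simp only [sys, this, map_add, Prod.fst_add, Prod.snd_add, Prod.mk_add_mk, Pi.add_apply]
    refine Prod.ext (by abel_nf) (Prod.ext (funext fun k => by simp [mul_add]) (by abel_nf))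
  map_smul' a x := by
    have : D.bd (a • x) = a • D.bd x := by
      simp only [bd, ← map_smul]; rfl
    simp only [sys, this, map_smul, Prod.smul_fst, Prod.smul_snd, Prod.smul_mk, Pi.smul_apply,
      RingHom.id_apply, smul_sub, smul_add]
    refine Prod.ext rfl (Prod.ext (funext fun k => by simp [mul_left_comm]) rfl)

/-- the source that solves the first equation -/
def lift : (AA × (κ ⊕ α → ℂ) × (γ → ℂ)) →ₗ[ℂ] AA × (κ ⊕ α → ℂ) × (γ → ℂ) :=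
  let g := LinearMap.fst ℂ AA _ - D.r ∘ₗ LinearMap.snd ℂ _ _ ∘ₗ LinearMap.snd ℂ AA _
  (g + D.S0 ∘ₗ D.Dat ∘ₗ D.Gu ∘ₗ g.prod (LinearMap.fst ℂ _ _ ∘ₗ LinearMap.snd ℂ AA _)).prod
    (LinearMap.snd ℂ AA _)

theorem sys_lift (t : ℂ) (ξ : AA × (κ ⊕ α → ℂ) × (γ → ℂ)) :
    (D.sys t (D.lift ξ)).1 = ξ.1 := by
  obtain ⟨g, η, β⟩ := ξ
  have e : D.lift (g, η, β) = (g - D.r β + D.S0 (D.Dat (D.Gu (g - D.r β, η))), η, β) := rfl
  have : D.bd (D.lift (g, η, β)) = D.Dat (D.Gu (g - D.r β, η)) := by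
    rw [e, bd]
    have e2 : ∀ a s : AA, ((a + s, η) : AA × (κ ⊕ α → ℂ)) = (a, η) + (s, 0) := by simp
    simp only
    rw [e2, map_add, D.Gu_S0, map_add, map_neg, D.Dat_Ph]; simp
  simp only [sys, this]
  rw [e]
  change g - D.r β + _ + D.r β - _ = g
  abel

theorem sys_bij [FiniteDimensional ℂ M]
    (hM : Module.finrank ℂ M = Fintype.card α + Fintype.card γ) {t : ℂ} (ht : t ≠ 0) :
    Function.Bijective (D.sys t) := by
  have inj : Function.Injective (D.sysL t) :=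
    (injective_iff_map_eq_zero _).2 fun _ h => D.sys_inj ht h
  refine ⟨inj, ?_⟩
  let N := LinearMap.snd ℂ AA _ ∘ₗ D.sysL t ∘ₗ D.lift ∘ₗ LinearMap.inr ℂ AA _
  have Ninj : Function.Injective N := (injective_iff_map_eq_zero _).2 fun q hq => by
    have h1 : D.sys t (D.lift (0, q)) = 0 := Prod.ext (D.sys_lift t _) hq
    exact congrArg Prod.snd (D.sys_inj ht h1)
  have Nsur : Function.Surjective N := by
    refine (LinearMap.injective_iff_surjective_of_finrank_eq_finrank ?_).1 Ninj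
    simp only [Module.finrank_prod, Module.finrank_fintype_fun_eq_card, Fintype.card_sum, hM]
    omega
  rintro ⟨g, y⟩
  obtain ⟨q, hq⟩ := Nsur (y - (D.sys t (D.lift (g, 0))).2)
  refine ⟨D.lift (g, q), Prod.ext (D.sys_lift t _) ?_⟩
  have e : ((g, q) : AA × _) = (g, 0) + (0, q) := by simp
  have h2 : D.sys t (D.lift (g, q)) = D.sys t (D.lift (g, 0)) + D.sys t (D.lift (0, q)) := by
    rw [e, map_add]; exact (D.sysL t).map_add _ _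
  rw [h2, Prod.snd_add]
  change _ + N q = y
  rw [hq]; abel

/-- the response to the end parameter `a'` has non zero `a`-pairings -/
theorem resp {t : ℂ} (ht : t ≠ 0) {Jc : V} (hJ : Jc ∈ D.H) (hP : D.Pr Jc = 0) {s : AA}
    (hs : D.ι s = -D.L Jc) (hD : D.Dat Jc = 0) {d : M}
    {ξ : AA × (κ ⊕ α → ℂ) × (γ → ℂ)} (h : D.sys t ξ = (s, 0, d))
    (h0 : ∀ a, ξ.2.1 (.inr a) = 0) :
    D.pr (D.Dat (-D.Jh ξ.2.2)) = D.d0 (D.Dat (-D.Jh ξ.2.2)) + d := by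
  obtain ⟨f, η, β⟩ := ξ
  simp only [sys, Prod.mk.injEq] at h
  obtain ⟨h1, h2, h3⟩ := h
  set b := D.bd (f, η, β) with hb
  have η0 : η = 0 := by
    funext k
    rcases k with k | a
    · exact (mul_eq_zero.1 (congrFun h2 k)).resolve_left ht
    · exact h0 a
  have hf : f = s + D.S0 b - D.r β := by rw [← h1]; abel
  have v0 : D.Gu (f, η) + D.Ph b + D.Jh β + Jc = 0 := by
    refine D.uniq' _ (add_mem (add_mem (add_mem (D.Gu_mem _) (D.Ph_mem _)) (D.Jh_mem _)) hJ)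
      (D.Gc (f, η)) ?_ ?_
    · have hι : D.ι f = -D.L Jc + -D.L (D.Ph b) - D.ι (D.r β) := by
        rw [← D.ι_S0, ← hs, ← map_add, ← map_sub, ← hf]
      rw [map_add, map_add, map_add, D.L_Gu, ← D.ι_r]
      change D.ι f + _ + _ + _ + _ = _
      rw [hι]; abel
    · rw [map_add, map_add, map_add, D.Pr_Ph, D.Pr_Jh, hP, D.Pr_Gu, η0]; simp
  have e : D.Dat (-D.Jh β) = b := by
    have : -D.Jh β = D.Gu (f, η) + D.Ph b + Jc := by
      rw [neg_eq_iff_eq_neg, eq_neg_iff_add_eq_zero, ← v0]; abel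
    rw [this, map_add, map_add, D.Dat_Ph, hD, add_zero, add_zero]; rfl
  simp only
  rw [e, ← h3]; abel

end LD

/-- the linearised system as a continuous linear equivalence -/
theorem LD.exists_equiv {V AA B M κ α γ : Type} [AddCommGroup V] [Module ℂ V]
    [NormedAddCommGroup AA] [NormedSpace ℂ AA] [CompleteSpace AA] [AddCommGroup B] [Module ℂ B]
    [NormedAddCommGroup M] [NormedSpace ℂ M] [FiniteDimensional ℂ M] [Fintype κ] [Fintype α]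
    [Fintype γ] (D : LD V AA B M κ α γ)
    (hM : Module.finrank ℂ M = Fintype.card α + Fintype.card γ) {t : ℂ} (ht : t ≠ 0)
    (T : (AA × (κ ⊕ α → ℂ) × (γ → ℂ)) →L[ℂ] AA × (κ → ℂ) × M) (hT : ∀ ξ, T ξ = D.sys t ξ) :
    ∃ A : (AA × (κ ⊕ α → ℂ) × (γ → ℂ)) ≃L[ℂ] AA × (κ → ℂ) × M, ∀ ξ, A ξ = T ξ := by
  have hb : Function.Bijective T := by rw [funext hT]; exact D.sys_bij hM ht
  have := FiniteDimensional.complete ℂ M
  exact ⟨ContinuousLinearEquiv.ofBijective T (LinearMap.ker_eq_bot.2 hb.1)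
    (LinearMap.range_eq_top.2 hb.2), fun _ => rfl⟩

end Crest.Agent.N250.Lg

end
end

-- ▼ part N250/Lg/Inst

/-! Row 250, block R0 (helper28): the linearised glued system is invertible. -/

set_option autoImplicit false
open Set Filter Topology
open scoped ContDiff

noncomputable section

namespace Crest.Agent.N250

namespace Lg

variable {v d d' : ℝ × ℝ → ℂ} {R : ℝ}

theorem Jac.c2 (h : Jac v R d) {q : ℝ × ℝ} (hq : R < q.1) : ContDiffAt ℝ 2 d q :=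
  (h.sm.contDiffAt ((isOpen_Ioi.prod isOpen_univ).mem_nhds ⟨hq, trivial⟩)).of_le R0.two_le_infty

theorem Jac.cont (h : Jac v R d) : Continuous fun θ => d (R, θ) :=
  h.c1.continuousOn.comp_continuous (continuous_const.prodMk continuous_id)
    fun _ => ⟨mem_Ici.2 le_rfl, trivial⟩

theorem Jac.comb (hR : 1 ≤ R) (h : Jac v R d) (h' : Jac v R d') (c : ℂ) :
    Jac v R fun q => d q + c * d' q where
  sm := h.sm.add (contDiffOn_const.mul h'.sm)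
  c1 := h.c1.add (contDiffOn_const.mul h'.c1)
  per s θ := by simp only [h.per s θ, h'.per s θ]
  eq q hq := by
    rw [Lp.linEL_add (h.c2 hq) (contDiffAt_const.mul (h'.c2 hq)), Lp.linEL_smul c (h'.c2 hq),
      h.eq q hq, h'.eq q hq]
    simp
  gr := by
    obtain ⟨C, N, a⟩ := h.gr
    obtain ⟨C', N', a'⟩ := h'.gr
    refine ⟨|C| + ‖c‖ * |C'|, N + N', fun q hq => (norm_add_le _ _).trans ?_⟩
    have h1 : 1 ≤ q.1 := hR.trans hq.le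
    have h2 : C * q.1 ^ N ≤ |C| * q.1 ^ (N + N') := by
      gcongr; exacts [le_abs_self C, by omega]
    have h3 : C' * q.1 ^ N' ≤ |C'| * q.1 ^ (N + N') := by
      gcongr; exacts [le_abs_self C', by omega]
    rw [norm_mul, add_mul, mul_assoc]
    exact add_le_add ((a q hq).trans h2)
      (mul_le_mul_of_nonneg_left ((a' q hq).trans h3) (norm_nonneg c))

theorem Jac.bc_comb (h : Jac v R d) (h' : Jac v R d') (c : ℂ) (m : ℤ) :
    bc R (fun q => d q + c * d' q) m = bc R d m + c * bc R d' m := by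
  rw [bc, Ra.fc_add h.cont (g := fun θ => c * d' (R, θ)) (continuous_const.mul h'.cont), Ra.fc_mul]
  rfl

theorem Lo.of_norm (h : Lo d) (e : ∀ q : ℝ × ℝ, R < q.1 → ‖d' q‖ = ‖d q‖) : Lo d' := fun t ht =>
  (h t ht).elim fun x hx => ⟨max x (R + 1), fun q hq => by
    rw [e q (by linarith [le_max_right x (R + 1)])]; exact hx q ((le_max_left _ _).trans hq)⟩

theorem int_cases {P : ℤ → Prop} (h : ∀ m, 2 ≤ |m| → P m) (h' : ∀ i : Fin 3, P ((i : ℤ) - 1))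
    (m : ℤ) : P m := by
  by_cases hm : 2 ≤ |m|
  · exact h m hm
  · obtain ⟨h1, h2⟩ := abs_lt.1 (not_le.1 hm)
    interval_cases m
    exacts [h' 0, h' 1, h' 2]

end Lg

namespace R0

open WS Lg Lp B1

variable {S : Mv} {T : St S}

/-- the linearised boundary datum -/
def St.Dat (T : St S) : T.G.SmC →ₗ[ℂ] T.BB := LinearMap.pi fun j =>
  LinearMap.mulLeft ℂ (Ec.four 2 fun θ => T.rS j (T.R, θ) / T.nu j (T.R, θ)) ∘ₗ
    (Ec.trS T.G (T.lo_ψ j T.eR_lt_R) 2).toLinearMap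

theorem St.syn_Dat (w : T.G.SmC) (j : Fin T.p) (θ : ℝ) : Wi.syn (T.Dat w j) θ =
    T.rS j (T.R, θ) / T.nu j (T.R, θ) * w.1 (T.ψ j (T.R, θ)) := by
  change Wi.syn (_ * Ec.trS T.G (T.lo_ψ j T.eR_lt_R) 2 w) θ = _
  rw [Wi.syn_mul, Ec.syn_trS,
    ((T.pd_rS T.eR_lt_R).div (T.pd_nu T.eR_lt_R) fun _ => T.nu_ne T.eR_lt_R).syn_four]

theorem St.co_Dat (w : T.G.SmC) (j : Fin T.p) (m : ℤ) : Wi.co (T.Dat w j) m =
    bc T.R (fun q => tau T.G (T.ψ j) (T.e.Q j) (T.e.r j) q * w.1 (T.ψ j q)) m := by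
  rw [← Ec.fc_syn, bc]
  exact congrArg (Ra.fc · m) (funext fun θ => by rw [St.syn_Dat, T.tau_eq T.eR_lt_R])

theorem St.val_sum {ι : Type} [Fintype ι] (f : ι → T.G.SmC) (p : S.sl 0) :
    (∑ i, f i).1 p = ∑ i, (f i).1 p := map_sum (T.G.evC p) _ _

theorem St.Dat_zero {w : T.G.SmC} (h : ∀ j θ, w.1 (T.ψ j (T.R, θ)) = 0) : T.Dat w = 0 :=
  funext fun j => Wi.ext_syn fun θ => by rw [St.syn_Dat, h, mul_zero]; exact (Wi.syn_zero θ).symm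

theorem St.ιρ (w : T.G.SmC) : T.G.oR T.G.ι * (T.G.oR T.G.ρ * w) = w := by
  rw [← mul_assoc, ← map_mul, mul_comm T.G.ι, T.G.ρι, map_one, one_mul]

namespace Fa

/-- the tubes, the lifted Jacobi fields and the cut-off rotation fields -/
structure In (F : Fa T) (t : Fin T.p → T.G.R) (Ph : Fin T.p → (ℝ × ℝ → ℂ) → T.G.SmC)
    (Jh : T.Bt →ₗ[ℂ] T.G.SmC) : Prop where
  tb : ∀ j, Tb T.G (T.e.Q j) (T.e.r j) (T.ψ j) (t j) T.R
  Ph_l2 : ∀ j d, Jac (T.vS j) T.R d → T.G.gC (Ph j d) ≠ ⊤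
  Ph_sL : ∀ j d, Jac (T.vS j) T.R d → T.sL j d = -(T.G.oR T.G.ρ * T.G.SC.LL (Ph j d))
  Ph_ip : ∀ k j d, T.G.ipC (F.φ k) (Ph j d) = 0
  Ph_bd : ∀ i j d θ, (Ph j d).1 (T.ψ i (T.R, θ)) = 0
  Jh_eq : ∀ β, Gc.dot (F.D.yy (T.m0 β)) T.G.SC.n = Jh β
  Jh_l2 : ∀ β, T.G.gC (Jh β) ≠ ⊤
  Jh_L2 : ∀ β, T.G.gC (T.G.SC.LL (Jh β)) ≠ ⊤
  Jh_ip : ∀ k β, T.G.ipC (F.φ k) (Jh β) = 0
  Jh_cut : ∀ β, T.G.oR T.χ' * T.G.SC.LL (Jh β) = T.G.SC.LL (Jh β)
  Jh_LL : ∀ β j (q : ℝ × ℝ), T.R < q.1 → (T.G.SC.LL (Jh β)).1 (T.ψ j q) = 0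
  Jh_tau : ∀ β j (q : ℝ × ℝ), T.R < q.1 →
    T.rS j q / T.nu j q * (Jh β).1 (T.ψ j q) = dR (T.e.r j) (fun l => β (j, l)) q

variable {F : Fa T} {t : Fin T.p → T.G.R} {Ph : Fin T.p → (ℝ × ℝ → ℂ) → T.G.SmC}
  {Jh : T.Bt →ₗ[ℂ] T.G.SmC} {u : Fin T.p → T.G.R} {σ : Scale T.G}
  {En : (Fin T.p → ℂ) × T.BB → T.WW σ}

theorem gC_φ (k : F.I) : T.G.gC (T.G.oR (F.φ k)) ≠ ⊤ :=
  T.G.gC_ne_of_cs ((F.cs_φ k).comp_left (g := fun r : ℝ => (r : ℂ)) Complex.ofReal_zero)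

/-- on the end `j` the slow fields are determined by their Dirichlet data -/
theorem In.tube (hi : F.In t Ph Jh) (hs : F.Sl u) (c : Fin T.p → ℂ) (β : T.Bt) {j : Fin T.p}
    {d : ℝ × ℝ → ℂ} (hd : Jac (T.vS j) T.R d)
    (hb : ∀ m, Wi.co (T.Dat (∑ l, c l • T.G.oR (u l) - Jh β) j) m = bc T.R d m) {q : ℝ × ℝ}
    (hq : T.R < q.1) : c j * (T.rS j q / T.nu j q * ((u j).1 (T.ψ j q) : ℂ)) +
      dR (T.e.r j) (-fun l => β (j, l)) q = d q := by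
  have hL : T.G.SC.LL (∑ l, c l • T.G.oR (u l) - Jh β) =
      ∑ l, c l • T.G.oR (F.φ (.inr l)) - T.G.SC.LL (Jh β) := by
    rw [← T.G.LLL_apply, map_sub, map_sum]
    simp only [map_smul, Geo.LLL_apply, Geo.LL_oR, hs.LL]
  have h := (hi.tb j).uniq F.fam (w := ∑ l, c l • T.G.oR (u l) - Jh β) (fun k p hp => by
      obtain ⟨y, hy, rfl⟩ := (hi.tb j).onto p hp
      exact F.φ_ψ k (by linarith))
    (T.G.gC_sub_ne (Geo.gC_sum_ne _ fun l _ => T.G.gC_smul_ne _ (by rw [Geo.gC_oR]; exact hs.l2 l))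
      (hi.Jh_l2 β))
    (hL ▸ T.G.gC_sub_ne (Geo.gC_sum_ne _ fun l _ => T.G.gC_smul_ne _ (gC_φ _))
      (hi.Jh_L2 β)) (fun p hp => by
      obtain ⟨y, hy, rfl⟩ := (hi.tb j).onto p hp
      rw [hL]
      change (∑ l, c l • T.G.oR (F.φ (.inr l))).1 _ - _ = 0
      rw [hi.Jh_LL β j y hy, sub_zero, St.val_sum]
      refine Finset.sum_eq_zero fun l _ => ?_
      change c l * ((F.φ (.inr l)).1 _ : ℂ) = 0
      rw [F.φ_ψ _ (by linarith)]; simp) hd (fun m => by rw [← St.co_Dat]; exact hb m) hq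
  rw [← h, T.tau_eq (T.eR_lt_R.trans hq), ← neg_one_smul ℂ (fun l => β (j, l)), dR_smul,
    ← hi.Jh_tau β j q hq]
  change _ = _ * ((∑ l, c l • T.G.oR (u l)).1 _ - _)
  rw [St.val_sum, Finset.sum_eq_single j (fun l _ hl => by
    change c l * ((u l).1 _ : ℂ) = 0
    rw [hs.off l j hl q hq.le]; simp) (by simp)]
  change _ = _ * (c j * ((u j).1 _ : ℂ) - _)
  ring

/-- lifted Jacobi fields -/
theorem In.lift (hi : F.In t Ph Jh) {d : Fin T.p → ℝ × ℝ → ℂ} (hd : ∀ j, Jac (T.vS j) T.R (d j))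
    (α : Fin T.p → ℂ) {s : Fin T.p → σ.AA} (e : ∀ j, σ.val (s j) = α j • T.sL j (d j)) :
    T.G.gC (∑ j, α j • Ph j (d j)) ≠ ⊤ ∧ (∀ k, T.G.ipC (F.φ k) (∑ j, α j • Ph j (d j)) = 0) ∧
    T.Dat (∑ j, α j • Ph j (d j)) = 0 ∧
    T.G.oR T.G.ι * σ.val (∑ j, s j) = -T.G.LLL (∑ j, α j • Ph j (d j)) := by
  refine ⟨Geo.gC_sum_ne _ fun j _ => T.G.gC_smul_ne _ (hi.Ph_l2 j _ (hd j)), fun k => ?_, ?_, ?_⟩
  · rw [T.G.ipC_sum (F.cs_φ k)]
    exact Finset.sum_eq_zero fun j _ => by rw [Geo.ipC_smul, hi.Ph_ip, mul_zero]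
  · rw [map_sum]
    exact Finset.sum_eq_zero fun j _ => by
      rw [map_smul, St.Dat_zero fun i θ => hi.Ph_bd i j _ θ, smul_zero]
  · rw [map_sum, map_sum, Finset.mul_sum, ← Finset.sum_neg_distrib]
    refine Finset.sum_congr rfl fun j _ => ?_
    rw [e, hi.Ph_sL j _ (hd j), map_smul, mul_smul_comm, mul_neg (T.G.oR T.G.ι), St.ιρ, smul_neg]; rfl

/-- the abstract linear data -/
def In.ld (hi : F.In t Ph Jh) (hs : F.Sl u) (hp : F.PhiD σ) (hj : T.JacD σ En) :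
    LD T.G.SmC σ.AA T.BB (Fin T.p × Fin 3 → ℂ) (Fin F.n) (Fin T.p) (Fin T.p × Fin 2) where
  H := ⟨⟨⟨{v | T.G.gC v ≠ ⊤}, T.G.gC_add_ne⟩, T.G.nm_g.zero.trans_ne ENNReal.zero_ne_top⟩,
    fun c _ => T.G.gC_smul_ne c⟩
  L := T.G.LLL
  ι := LinearMap.mulLeft ℂ (T.G.oR T.G.ι) ∘ₗ σ.val.toLinearMap
  ψ k := T.G.oR (F.φ k)
  Pr := LinearMap.pi fun k => T.G.ipL (F.cs_φ k)
  Gu := σ.wL F.grn
  Gc := (σ.cL F.grn).toLinearMap
  u l := T.G.oR (u l)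
  Jh := Jh
  r := -((fderiv ℂ F.NL 0).toLinearMap ∘ₗ LinearMap.inr ℂ _ _ ∘ₗ LinearMap.inr ℂ _ _)
  Dat := T.Dat
  Ph b := ∑ j, (1 : ℂ) • Ph j (hj.jb b j).choose
  S0 := ∑ j, LinearMap.fst ℂ _ _ ∘ₗ LinearMap.proj j ∘ₗ (fderiv ℂ En 0).toLinearMap ∘ₗ
    LinearMap.inr ℂ _ _
  pr := LinearMap.pi fun q => (Wi.coL (omP 2) ((q.2 : ℤ) - 1)).toLinearMap ∘ₗ LinearMap.proj q.1
  d0 := LinearMap.pi fun q => LinearMap.proj q.2 ∘ₗ LinearMap.snd ℂ _ _ ∘ₗ LinearMap.proj q.1 ∘ₗ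
    (fderiv ℂ En 0).toLinearMap ∘ₗ LinearMap.inr ℂ _ _
  Gu_mem q := (σ.isG F.grn q).l2
  L_Gu q := (σ.isG F.grn q).eq
  Pr_Gu q := funext (σ.isG F.grn q).ip
  uniq v hv c h1 h2 := (hs.core.grnS.uniq0 (c := c) ⟨hv, h1.trans (zero_add _).symm, h2⟩).1
  uniq' v hv c h1 h2 := (F.grn.uniq0 (c := c) ⟨hv, h1.trans (zero_add _).symm, congrFun h2⟩).1
  u_mem l := (T.G.gC_oR _).trans_ne (hs.l2 l)
  L_u l := (T.G.LL_oR _).trans (congrArg _ (hs.LL l))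
  Pr_u l k := (T.G.ipC_oR _ _).trans (by rw [hs.ip, Complex.ofReal_zero])
  Jh_mem := hi.Jh_l2
  Pr_Jh β := funext fun k => hi.Jh_ip k β
  ι_r β := by
    change T.G.oR T.G.ι * σ.val (-fderiv ℂ F.NL 0 (0, 0, β)) = T.G.SC.LL _
    rw [map_neg, hp.nl.fd, neg_neg, hi.Jh_eq, mul_comm T.χ', map_mul, mul_assoc, St.ιρ, hi.Jh_cut]
  Ph_mem b := (hi.lift (fun j => (hj.jb b j).choose_spec.1.jac) 1
    fun j => (hj.jb b j).choose_spec.2.1.trans (one_smul ℂ _).symm).1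
  Pr_Ph b := funext (hi.lift (fun j => (hj.jb b j).choose_spec.1.jac) 1
    fun j => (hj.jb b j).choose_spec.2.1.trans (one_smul ℂ _).symm).2.1
  Dat_Ph b := (hi.lift (fun j => (hj.jb b j).choose_spec.1.jac) 1
    fun j => (hj.jb b j).choose_spec.2.1.trans (one_smul ℂ _).symm).2.2.1
  ι_S0 b := by
    rw [LinearMap.sum_apply]
    exact (hi.lift (fun j => (hj.jb b j).choose_spec.1.jac) 1
      fun j => (hj.jb b j).choose_spec.2.1.trans (one_smul ℂ _).symm).2.2.2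
  slow c β h := by
    have k : ∀ j, c j = 0 ∧ (-fun l => β (j, l)) = 0 := fun j => by
      obtain ⟨d, h1, -, h2⟩ := hj.jb (T.Dat (∑ l, c l • T.G.oR (u l) - Jh β)) j
      refine (as_of_ends T.e j).indep' (hs.unb j) (h1.lo.of_norm (R := T.R) fun q hq => ?_)
      rw [hi.tube hs c β h1.jac (int_cases (fun m hm => (h1.inner m hm).symm)
        fun i => (congrFun h (j, i)).trans (h2 i)) hq]
    exact ⟨funext fun j => (k j).1, funext fun q => congrFun (neg_eq_zero.1 (k q.1).2) q.2⟩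

theorem In.sys_eq (hi : F.In t Ph Jh) (hs : F.Sl u) (hp : F.PhiD σ) (hj : T.JacD σ En)
    (ξ : F.Ξ σ) : fderiv ℂ F.Φ 0 (ξ, 0, fderiv ℂ En 0 (0, fderiv ℂ F.dat 0 ξ)) =
      (hi.ld hs hp hj).sys 1 ξ := by
  have e1 : fderiv ℂ F.dat 0 ξ = (hi.ld hs hp hj).bd ξ := funext fun j => Wi.ext_syn fun θ =>
    (hp.dat.fd ξ j θ).trans (St.syn_Dat _ j θ).symm
  have e2 : fderiv ℂ F.NL 0 ξ = fderiv ℂ F.NL 0 (0, 0, ξ.2.2) := σ.val_inj (by
    rw [hp.nl.fd, hp.nl.fd])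
  rw [hp.fd, e1, e2]
  refine Prod.ext ?_ (Prod.ext (funext fun k => by simp [LD.sys]) rfl)
  simp only [LD.sys]
  rw [sub_eq_add_neg ξ.1]
  refine congrArg₂ (· - ·) rfl ?_
  symm
  exact (LinearMap.sum_apply _ _ _).trans rfl

theorem In.linD (hi : F.In t Ph Jh) (hs : F.Sl u) (hp : F.PhiD σ) (hj : T.JacD σ En) :
    F.LinD σ En := by
  obtain ⟨A, hA⟩ := (hi.ld hs hp hj).exists_equiv (by simp; ring) one_ne_zero
    (fderiv ℂ F.Φ 0 ∘L (ContinuousLinearMap.id ℂ _).prod ((0 : F.Ξ σ →L[ℂ] (Fin F.n → ℂ)).prod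
      (fderiv ℂ En 0 ∘L ContinuousLinearMap.inr ℂ _ _ ∘L fderiv ℂ F.dat 0)))
    (hi.sys_eq hs hp hj)
  refine ⟨A, hA, fun α ξ h h0 => funext fun j => ?_⟩
  choose d h2 h3 using hj.jc
  obtain ⟨a1, a2, a3, a4⟩ := hi.lift (fun j => (h2 j).jac) α fun j => (h3 j α).1
  have e := (hi.ld hs hp hj).resp one_ne_zero a1 (funext a2) a4 a3 (ξ := ξ)
    (d := fun q => (fderiv ℂ En 0 (α, 0) q.1).2 q.2) (by
      rw [← hi.sys_eq]
      refine ((hA ξ).symm.trans h).trans ?_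
      rw [hp.fd]
      simp [Pi.neg_def, Pi.zero_def]) fun a => congrFun h0 _
  obtain ⟨d1, h1, -, h4⟩ := hj.jb (T.Dat (-Jh ξ.2.2)) j
  refine ((as_of_ends T.e j).indep' (β := fun l => ξ.2.2 (j, l)) (h2 j).unb
    (h1.lo.of_norm (R := T.R) fun q hq => ?_)).1
  have k := hi.tube hs 0 ξ.2.2 (h1.jac.comb (by linarith [T.R_ge]) (h2 j).jac (α j)) (by
    simp only [Pi.zero_apply, zero_smul, Finset.sum_const_zero, zero_sub,
      h1.jac.bc_comb (h2 j).jac]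
    exact int_cases (fun m hm => by rw [h1.inner m hm, (h2 j).inner m hm, mul_zero, add_zero])
      fun i => (congrFun e (j, i)).trans (congrArg₂ (· + ·) (h4 i) ((h3 j α).2 i))) hq
  rw [← neg_one_smul ℂ (fun l => ξ.2.2 (j, l)), dR_smul, Pi.zero_apply] at k
  rw [← norm_neg (d1 q)]
  congr 1
  linear_combination -k

end Fa

theorem linL_of_in (h1 : ∀ (S : Mv) (e : Ends S), Ev e fun T => ∃ (F : Fa T) (u : _), F.Sl u)
    (h2 : ∀ (S : Mv) (T : St S) (F : Fa T), ∃ t Ph Jh, F.In t Ph Jh) : LinL := fun S e =>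
  (h1 S e).mono fun T _ ⟨F, _, hs⟩ => ⟨F, Sg.of_forall fun _ hp _ hj =>
    (h2 S T F).elim fun _ ⟨_, _, hi⟩ => hi.linD hs hp hj⟩

end R0

end Crest.Agent.N250

end

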